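import Vale.Agent.P047.Up.Poly

/-!
Random identification of variables: g_b(y) = f(y o b) for b : Fin n -> Fin m.
-/

namespace Vale.Agent.P047.Up

open Finset Vale.Agent.P047

variable {n m : ℕ}

/-- f with its variables identified along b. -/
def gb (f : (Fin n → Bool) → ℝ) (b : Fin n → Fin m) : (Fin m → Bool) → ℝ :=
  fun y => f (fun i => y (b i))

/-- s(y) = sum of the signs. -/
noncomputable def ssum (y : Fin m → Bool) : ℝ := ∑ c, sgn (y c)

theorem gb_boolean (f : (Fin n → Bool) → ℝ) (hf : IsBoolean f) (b : Fin n → Fin m) :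
    IsBoolean (gb f b) := fun y => hf _

private theorem chi_flip_mem (T : Finset (Fin m)) (c : Fin m) (hc : c ∈ T) (y : Fin m → Bool) :
    chi T (Function.update y c (!y c)) = - chi T y := by
  unfold chi
  rw [← Finset.mul_prod_erase T _ hc, ← Finset.mul_prod_erase T _ hc, Function.update_self, sgn_not]
  have : ∏ x ∈ T.erase c, sgn (Function.update y c (!y c) x) = ∏ x ∈ T.erase c, sgn (y x) := by
    refine Finset.prod_congr rfl (fun i hi => ?_)
    rw [Function.update_of_ne (Finset.ne_of_mem_erase hi)]
  rw [this]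
  ring

/-- [I1] if card S < card T there is c in T outside the image of S under b; flipping y_c (an involution of the cube)
changes the sign of chi T y and fixes chi S (y o b).  (Or: write the summand as a product over c and use `sum_cube_prod`.) -/
theorem sum_chi_comp_mul_chi (b : Fin n → Fin m) (S : Finset (Fin n)) (T : Finset (Fin m))
    (h : S.card < T.card) :
    ∑ y : Fin m → Bool, chi S (fun i => y (b i)) * chi T y = 0 := by
  classical
  have hex : ∃ c ∈ T, c ∉ S.image b := by
    by_contra hcon
    push Not at hcon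
    have h1 : T ⊆ S.image b := fun c hc => hcon c hc
    have h2 := Finset.card_le_card h1
    have h3 := Finset.card_image_le (s := S) (f := b)
    omega
  obtain ⟨c, hcT, hcS⟩ := hex
  have hinv : Function.Involutive (fun y : Fin m → Bool => Function.update y c (!y c)) := by
    intro y
    funext i
    by_cases hi : i = c
    · subst hi
      simp
    · simp [Function.update_of_ne hi]
  have e := Equiv.sum_comp hinv.toPerm (fun y => chi S (fun i => y (b i)) * chi T y)
  simp only [Function.Involutive.coe_toPerm] at e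
  have e2 : ∀ y : Fin m → Bool,
      chi S (fun i => Function.update y c (!y c) (b i)) * chi T (Function.update y c (!y c)) =
        - (chi S (fun i => y (b i)) * chi T y) := by
    intro y
    rw [chi_flip_mem T c hcT]
    have : chi S (fun i => Function.update y c (!y c) (b i)) = chi S (fun i => y (b i)) := by
      unfold chi
      refine Finset.prod_congr rfl (fun i hi => ?_)
      have : b i ≠ c := by
        intro hbc
        exact hcS (Finset.mem_image.mpr ⟨i, hi, hbc⟩)
      show sgn (Function.update y c (!y c) (b i)) = sgn (y (b i))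
      rw [Function.update_of_ne this]
    rw [this]
    ring
  simp_rw [e2] at e
  rw [Finset.sum_neg_distrib] at e
  linarith

/-- [I2] `degree_le_of_forall`; expand f by `fourier_inversion`; terms with card S > d vanish
(`fourier_eq_zero_of_degree_lt`), the others by `sum_chi_comp_mul_chi`. -/
theorem degree_gb_le (f : (Fin n → Bool) → ℝ) (d : ℕ) (hdeg : degree f ≤ d) (b : Fin n → Fin m) :
    degree (gb f b) ≤ d := by
  apply degree_le_of_forall
  intro T hT
  unfold fourier
  have : ∑ y : Fin m → Bool, gb f b y * chi T y = 0 := by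
    have h1 : ∀ y : Fin m → Bool, gb f b y * chi T y =
        ∑ S : Finset (Fin n), fourier f S * (chi S (fun i => y (b i)) * chi T y) := by
      intro y
      unfold gb
      rw [fourier_inversion f (fun i => y (b i)), Finset.sum_mul]
      refine Finset.sum_congr rfl (fun S _ => ?_)
      ring
    simp_rw [h1]
    rw [Finset.sum_comm]
    refine Finset.sum_eq_zero (fun S _ => ?_)
    rw [← Finset.mul_sum]
    by_cases hS : S.card ≤ d
    · rw [sum_chi_comp_mul_chi b S T (by omega), mul_zero]
    · rw [fourier_eq_zero_of_degree_lt f S (by omega), zero_mul]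
  rw [this, zero_div]

/-- [I3] number of c with y c = beta is (m + sgn beta * s(y)) / 2. -/
theorem card_fiber (y : Fin m → Bool) (β : Bool) :
    ((univ.filter (fun c => y c = β)).card : ℝ) = ((m : ℝ) + sgn β * ssum y) / 2 := by
  have h : ∀ c, (if y c = β then (1:ℝ) else 0) = (1 + sgn β * sgn (y c)) / 2 := by
    intro c
    cases β <;> cases y c <;> simp [sgn]
  rw [Finset.card_filter]
  push_cast
  rw [Finset.sum_congr rfl fun c _ => h c, ← Finset.sum_div, Finset.sum_add_distrib,
    ← Finset.mul_sum]
  simp [ssum]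

/-- [I4] sum over b of f(y o b) = sum_x f x * #{b : y o b = x} = sum_x f x * prod_i #{c : y c = x i}
(Fintype.card_pi / Finset.prod_univ_sum), then `card_fiber`. -/
theorem sum_gb (f : (Fin n → Bool) → ℝ) (hm : 1 ≤ m) (y : Fin m → Bool) :
    ∑ b : Fin n → Fin m, gb f b y = (m : ℝ) ^ n * pmu f (ssum y / (m : ℝ)) := by
  classical
  have hm0 : (m : ℝ) ≠ 0 := by
    have : (0 : ℝ) < (m : ℝ) := by exact_mod_cast hm
    exact this.ne'
  have h1 : ∀ b : Fin n → Fin m, gb f b y =
      ∑ x : Fin n → Bool, f x * ∏ i, (if y (b i) = x i then (1 : ℝ) else 0) := by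
    intro b
    rw [Finset.sum_eq_single (fun i => y (b i))]
    · simp [gb]
    · intro x _ hx
      have : ∃ i, y (b i) ≠ x i := by
        by_contra hcon
        push Not at hcon
        exact hx (funext fun i => (hcon i).symm)
      obtain ⟨i, hi⟩ := this
      rw [Finset.prod_eq_zero (Finset.mem_univ i) (by simp [hi]), mul_zero]
    · intro h
      exact absurd (Finset.mem_univ _) h
  simp_rw [h1]
  rw [Finset.sum_comm]
  unfold pmu
  rw [Finset.mul_sum]
  refine Finset.sum_congr rfl (fun x _ => ?_)
  rw [← Finset.mul_sum]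
  have h3 : ∑ b : Fin n → Fin m, ∏ i, (if y (b i) = x i then (1 : ℝ) else 0) =
      ∏ i : Fin n, ∑ c : Fin m, (if y c = x i then (1 : ℝ) else 0) :=
    (Fintype.prod_sum (fun (i : Fin n) (c : Fin m) => if y c = x i then (1 : ℝ) else 0)).symm
  rw [h3]
  have h2 : ∀ i : Fin n, ∑ c : Fin m, (if y c = x i then (1 : ℝ) else 0) =
      (m : ℝ) * ((1 + ssum y / (m : ℝ) * sgn (x i)) / 2) := by
    intro i
    rw [Finset.sum_boole, card_fiber]
    field_simp
  simp_rw [h2]
  rw [Finset.prod_mul_distrib, Finset.prod_const, Finset.card_univ, Fintype.card_fin]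
  ring

/-- [I5] `linSum_eq`, exchange sums, `sum_gb`. -/
theorem sum_linSum_gb (f : (Fin n → Bool) → ℝ) (hm : 1 ≤ m) :
    ∑ b : Fin n → Fin m, linSum (gb f b) =
      (m : ℝ) ^ n * ((∑ y : Fin m → Bool, ssum y * pmu f (ssum y / (m : ℝ))) / 2 ^ m) := by
  simp_rw [linSum_eq]
  rw [← Finset.sum_div, Finset.sum_comm, Fintype.card_fin, mul_div_assoc', Finset.mul_sum]
  congr 1
  refine Finset.sum_congr rfl fun y _ => ?_
  rw [← Finset.sum_mul, sum_gb f hm y]
  unfold ssum
  ring

/-- [I5] averaging: there are m^n maps b (Finset.exists_le_of_sum_le, Fintype.card_fun). -/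
theorem exists_gb (f : (Fin n → Bool) → ℝ) (hm : 1 ≤ m) :
    ∃ b : Fin n → Fin m,
      (∑ y : Fin m → Bool, ssum y * pmu f (ssum y / (m : ℝ))) / 2 ^ m ≤ linSum (gb f b) := by
  have : Nonempty (Fin m) := ⟨⟨0, hm⟩⟩
  set A := (∑ y : Fin m → Bool, ssum y * pmu f (ssum y / (m : ℝ))) / 2 ^ m with hA
  have h := sum_linSum_gb f hm
  rw [← hA] at h
  have h2 : ∑ _b : Fin n → Fin m, A ≤ ∑ b : Fin n → Fin m, linSum (gb f b) := by
    rw [h, Finset.sum_const, Finset.card_univ, Fintype.card_fun, Fintype.card_fin, Fintype.card_fin,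
      nsmul_eq_mul]
    push_cast
    exact le_refl _
  obtain ⟨b, _, hb⟩ := Finset.exists_le_of_sum_le (Finset.univ_nonempty) h2
  exact ⟨b, hb⟩

end Vale.Agent.P047.Up
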