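import Vale.Agent.P047.Beat.Part2
import Vale.Agent.P047.Beat.Gadget

/-!
Fourier inversion, Plancherel, influences.  Goal [E8]: for Boolean f on n variables of degree at most d,
  L + (d - 1) L^2 / n <= d,   L = linSum f.
-/

namespace Vale.Agent.P047.Up

open Finset Vale.Agent.P047

variable {n : ℕ}

/-- [E1] sum over S of chi S x * chi S y = prod_i (1 + x_i y_i)  (Finset.prod_one_add / Finset.prod_add), which is
2^n if x = y and 0 otherwise. -/
theorem sum_chi_mul_chi (x y : Fin n → Bool) :
    ∑ S : Finset (Fin n), chi S x * chi S y = if x = y then (2 : ℝ) ^ n else 0 := by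
  have h1 : ∑ S : Finset (Fin n), chi S x * chi S y = ∏ i : Fin n, (1 + sgn (x i) * sgn (y i)) := by
    rw [Finset.prod_one_add]
    rw [Finset.powerset_univ]
    refine Finset.sum_congr rfl (fun S _ => ?_)
    unfold chi
    rw [Finset.prod_mul_distrib]
  rw [h1]
  split_ifs with h
  · subst h
    have : ∀ i : Fin n, (1 + sgn (x i) * sgn (x i)) = (2 : ℝ) := by
      intro i
      unfold sgn
      cases x i <;> norm_num
    simp [this]
  · have : ∃ i, x i ≠ y i := by
      by_contra hc
      exact h (funext (fun i => by_contra (fun hi => hc ⟨i, hi⟩)))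
    obtain ⟨i, hi⟩ := this
    refine Finset.prod_eq_zero (Finset.mem_univ i) ?_
    unfold sgn
    revert hi
    cases x i <;> cases y i <;> simp

/-- [E2] Fourier inversion, from `sum_chi_mul_chi` (unfold fourier, Finset.sum_comm). -/
theorem fourier_inversion (f : (Fin n → Bool) → ℝ) (x : Fin n → Bool) :
    f x = ∑ S : Finset (Fin n), fourier f S * chi S x := by
  have h2 : (2 : ℝ) ^ n ≠ 0 := by positivity
  have h1 : ∀ S : Finset (Fin n), fourier f S * chi S x =
      ∑ y : Fin n → Bool, f y * (chi S y * chi S x) / 2 ^ n := by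
    intro S
    unfold fourier
    rw [Fintype.card_fin, div_mul_eq_mul_div, Finset.sum_mul, Finset.sum_div]
    refine Finset.sum_congr rfl (fun y _ => ?_)
    rw [mul_assoc]
  rw [Finset.sum_congr rfl (fun S _ => h1 S), Finset.sum_comm]
  have h3 : ∀ y : Fin n → Bool, ∑ S : Finset (Fin n), f y * (chi S y * chi S x) / 2 ^ n =
      if y = x then f y else 0 := by
    intro y
    rw [← Finset.sum_div, ← Finset.mul_sum, sum_chi_mul_chi]
    split_ifs
    · field_simp
    · simp
  rw [Finset.sum_congr rfl (fun y _ => h3 y)]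
  simp

/-- [E3] Plancherel: expand g by `fourier_inversion`, exchange sums. -/
theorem plancherel (f g : (Fin n → Bool) → ℝ) :
    (∑ x : Fin n → Bool, f x * g x) / 2 ^ n = ∑ S : Finset (Fin n), fourier f S * fourier g S := by
  have h1 : ∀ S : Finset (Fin n), fourier f S * fourier g S =
      ∑ x : Fin n → Bool, (fourier f S * chi S x) * g x / 2 ^ n := by
    intro S
    conv_lhs => rw [fourier.eq_def g S]
    rw [Fintype.card_fin, mul_div_assoc', Finset.mul_sum, Finset.sum_div]
    refine Finset.sum_congr rfl (fun y _ => ?_)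
    ring
  rw [Finset.sum_congr rfl (fun S _ => h1 S), Finset.sum_comm, Finset.sum_div]
  refine Finset.sum_congr rfl (fun x _ => ?_)
  rw [← Finset.sum_div, ← Finset.sum_mul, ← fourier_inversion]

/-- [E3] Parseval for Boolean functions: f x * f x = 1. -/
theorem parseval (f : (Fin n → Bool) → ℝ) (hf : IsBoolean f) :
    ∑ S : Finset (Fin n), fourier f S ^ 2 = 1 := by
  have h2 : (2 : ℝ) ^ n ≠ 0 := by positivity
  have h := plancherel f f
  have h1 : ∑ x : Fin n → Bool, f x * f x = 2 ^ n := by
    have : ∀ x : Fin n → Bool, f x * f x = 1 := by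
      intro x
      rcases hf x with h | h <;> rw [h] <;> norm_num
    rw [Finset.sum_congr rfl (fun x _ => this x)]
    simp
  rw [h1, div_self h2] at h
  rw [h]
  exact Finset.sum_congr rfl (fun S _ => by ring)

/-- [E4 aux] the flip of coordinate i as an equivalence of the cube. -/
def flipEquiv (i : Fin n) : (Fin n → Bool) ≃ (Fin n → Bool) where
  toFun := fun x => Function.update x i (!x i)
  invFun := fun x => Function.update x i (!x i)
  left_inv := by
    intro x
    funext j
    by_cases h : j = i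
    · subst h; simp
    · simp [Function.update_of_ne h]
  right_inv := by
    intro x
    funext j
    by_cases h : j = i
    · subst h; simp
    · simp [Function.update_of_ne h]

/-- [E4 aux] chi S changes sign under the flip iff i is in S. -/
theorem chi_flip (i : Fin n) (S : Finset (Fin n)) (x : Fin n → Bool) :
    chi S (Function.update x i (!x i)) = (if i ∈ S then -1 else 1) * chi S x := by
  unfold chi
  by_cases h : i ∈ S
  · rw [if_pos h, ← Finset.mul_prod_erase S _ h, ← Finset.mul_prod_erase S (fun j => sgn (x j)) h]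
    have h1 : ∏ j ∈ S.erase i, sgn (Function.update x i (!x i) j) = ∏ j ∈ S.erase i, sgn (x j) := by
      refine Finset.prod_congr rfl fun j hj => ?_
      rw [Function.update_of_ne (Finset.ne_of_mem_erase hj)]
    rw [h1, Function.update_self]
    have h2 : sgn (!x i) = - sgn (x i) := by
      unfold sgn
      cases x i <;> simp
    rw [h2]; ring
  · rw [if_neg h, one_mul]
    refine Finset.prod_congr rfl fun j hj => ?_
    have hji : j ≠ i := fun e => h (e ▸ hj)
    rw [Function.update_of_ne hji]

/-- [E4] x -> update x i (not x i) is an involution of the cube; chi S changes sign iff i is in S. -/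
theorem fourier_flip (f : (Fin n → Bool) → ℝ) (i : Fin n) (S : Finset (Fin n)) :
    fourier (fun x => f (Function.update x i (!x i))) S =
      (if i ∈ S then -1 else 1) * fourier f S := by
  unfold fourier
  have h : ∑ x : Fin n → Bool, f (Function.update x i (!x i)) * chi S x =
      (if i ∈ S then -1 else 1) * ∑ x : Fin n → Bool, f x * chi S x := by
    rw [Finset.mul_sum]
    refine Fintype.sum_equiv (flipEquiv i) _ _ fun x => ?_
    show _ = _ * (f (Function.update x i (!x i)) * chi S (Function.update x i (!x i)))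
    rw [chi_flip]
    by_cases h : i ∈ S <;> simp [h]
  rw [h, mul_div_assoc]

/-- [E5] with F x = f (flip_i x):  2 * fourier f {i} = fourier f {i} - fourier F {i} = E[(f - F) x_i], so
2 |fourier f {i}| <= E|f - F| = E[1 - f F] = 1 - sum_S (+-) fourier f S ^2 = 2 sum over S containing i
(`fourier_flip`, `plancherel`, `parseval`; |a - b| = 1 - a b for a, b in {1,-1}). -/
theorem abs_fourier_singleton_le (f : (Fin n → Bool) → ℝ) (hf : IsBoolean f) (i : Fin n) :
    |fourier f {i}| ≤ ∑ S ∈ univ.filter (fun S : Finset (Fin n) => i ∈ S), fourier f S ^ 2 := by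
  classical
  obtain ⟨F, hF⟩ : ∃ F : (Fin n → Bool) → ℝ, F = fun x => f (Function.update x i (!x i)) :=
    ⟨_, rfl⟩
  have hFb : ∀ x, F x = 1 ∨ F x = -1 := fun x => by rw [hF]; exact hf _
  have h1 : fourier F {i} = - fourier f {i} := by
    rw [hF, fourier_flip]; simp
  have h2 : 2 * fourier f {i} = (∑ x : Fin n → Bool, (f x - F x) * chi {i} x) / 2 ^ n := by
    have h : fourier f {i} - fourier F {i} =
        (∑ x : Fin n → Bool, (f x - F x) * chi {i} x) / 2 ^ n := by
      unfold fourier
      rw [← sub_div, ← Finset.sum_sub_distrib]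
      simp [sub_mul]
    rw [← h, h1]; ring
  have h3 : |∑ x : Fin n → Bool, (f x - F x) * chi {i} x| ≤
      ∑ x : Fin n → Bool, (1 - f x * F x) := by
    refine le_trans (Finset.abs_sum_le_sum_abs _ _) (Finset.sum_le_sum fun x _ => ?_)
    have hc : |chi {i} x| = 1 := by
      simp only [chi, Finset.prod_singleton, sgn]
      split_ifs <;> simp
    rw [abs_mul, hc, mul_one]
    rcases hf x with a | a <;> rcases hFb x with b | b <;> rw [a, b] <;> norm_num
  have h4 : (∑ x : Fin n → Bool, (1 - f x * F x)) / 2 ^ n =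
      1 - ∑ S : Finset (Fin n), fourier f S * fourier F S := by
    rw [← plancherel, Finset.sum_sub_distrib, sub_div]
    simp
  have h5 : ∑ S : Finset (Fin n), fourier f S * fourier F S =
      ∑ S : Finset (Fin n), (if i ∈ S then -1 else 1) * fourier f S ^ 2 := by
    refine Finset.sum_congr rfl fun S _ => ?_
    rw [hF, fourier_flip]; ring
  have h6 : 1 - ∑ S : Finset (Fin n), (if i ∈ S then -1 else 1) * fourier f S ^ 2 =
      2 * ∑ S ∈ univ.filter (fun S : Finset (Fin n) => i ∈ S), fourier f S ^ 2 := by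
    have hp := parseval f hf
    have h : ∑ S : Finset (Fin n), fourier f S ^ 2 -
        ∑ S : Finset (Fin n), (if i ∈ S then -1 else 1) * fourier f S ^ 2 =
        2 * ∑ S ∈ univ.filter (fun S : Finset (Fin n) => i ∈ S), fourier f S ^ 2 := by
      rw [← Finset.sum_sub_distrib, Finset.sum_filter, Finset.mul_sum]
      refine Finset.sum_congr rfl fun S _ => ?_
      split_ifs <;> ring
    rw [hp] at h
    exact h
  have h7 : |2 * fourier f {i}| ≤
      2 * ∑ S ∈ univ.filter (fun S : Finset (Fin n) => i ∈ S), fourier f S ^ 2 := by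
    rw [h2, abs_div, abs_of_pos (by positivity : (0 : ℝ) < 2 ^ n), ← h6, ← h5, ← h4]
    exact div_le_div_of_nonneg_right h3 (by positivity)
  rw [abs_mul] at h7
  norm_num at h7
  linarith

/-- [E6] sum `abs_fourier_singleton_le` over i and exchange the sums (each S is counted card S times). -/
theorem sum_abs_le_inf (f : (Fin n → Bool) → ℝ) (hf : IsBoolean f) :
    ∑ i, |fourier f {i}| ≤ ∑ S : Finset (Fin n), (S.card : ℝ) * fourier f S ^ 2 := by
  calc ∑ i, |fourier f {i}|
      ≤ ∑ i, ∑ S ∈ univ.filter (fun S : Finset (Fin n) => i ∈ S), fourier f S ^ 2 :=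
        Finset.sum_le_sum fun i _ => abs_fourier_singleton_le f hf i
    _ = ∑ i, ∑ S : Finset (Fin n), (if i ∈ S then fourier f S ^ 2 else 0) := by
        refine Finset.sum_congr rfl fun i _ => ?_
        rw [Finset.sum_filter]
    _ = ∑ S : Finset (Fin n), ∑ i, (if i ∈ S then fourier f S ^ 2 else 0) := Finset.sum_comm
    _ = ∑ S : Finset (Fin n), (S.card : ℝ) * fourier f S ^ 2 := by
        refine Finset.sum_congr rfl fun S _ => ?_
        rw [Finset.sum_ite_mem, Finset.univ_inter, Finset.sum_const, nsmul_eq_mul]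

/-- [E7] d - sum_S |S| fh(S)^2 = sum_S (d - |S|) fh(S)^2 (`parseval`); every term is nonnegative
(`fourier_eq_zero_of_degree_lt`) and the singletons contribute (d-1) sum_i fh({i})^2. -/
theorem lin_add_W1_le (f : (Fin n → Bool) → ℝ) (hf : IsBoolean f) (d : ℕ) (hdeg : degree f ≤ d)
    (hd : 1 ≤ d) : linSum f + ((d : ℝ) - 1) * ∑ i, fourier f {i} ^ 2 ≤ (d : ℝ) := by
  have h1 : linSum f ≤ ∑ S : Finset (Fin n), (S.card : ℝ) * fourier f S ^ 2 := by
    refine le_trans ?_ (sum_abs_le_inf f hf)
    unfold linSum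
    exact Finset.sum_le_sum fun i _ => le_abs_self _
  have h2 : (d : ℝ) = ∑ S : Finset (Fin n), (d : ℝ) * fourier f S ^ 2 := by
    rw [← Finset.mul_sum, parseval f hf, mul_one]
  have hnn : ∀ S : Finset (Fin n), 0 ≤ ((d : ℝ) - S.card) * fourier f S ^ 2 := by
    intro S
    by_cases hS : S.card ≤ d
    · have : (S.card : ℝ) ≤ d := by exact_mod_cast hS
      have h3 : 0 ≤ (d : ℝ) - S.card := by linarith
      positivity
    · rw [fourier_eq_zero_of_degree_lt f S (by omega)]
      simp
  have h3 : ((d : ℝ) - 1) * ∑ i, fourier f {i} ^ 2 ≤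
      ∑ S : Finset (Fin n), ((d : ℝ) - S.card) * fourier f S ^ 2 := by
    have h4 : ((d : ℝ) - 1) * ∑ i, fourier f {i} ^ 2 =
        ∑ S ∈ (univ : Finset (Fin n)).map ⟨fun i => ({i} : Finset (Fin n)),
          Finset.singleton_injective⟩, ((d : ℝ) - S.card) * fourier f S ^ 2 := by
      rw [Finset.sum_map, Finset.mul_sum]
      refine Finset.sum_congr rfl fun i _ => ?_
      simp
    rw [h4]
    exact Finset.sum_le_sum_of_subset_of_nonneg (Finset.subset_univ _) fun S _ _ => hnn S
  have h5 : ∑ S : Finset (Fin n), ((d : ℝ) - S.card) * fourier f S ^ 2 =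
      (d : ℝ) - ∑ S : Finset (Fin n), (S.card : ℝ) * fourier f S ^ 2 := by
    conv_rhs => rw [h2]
    rw [← Finset.sum_sub_distrib]
    refine Finset.sum_congr rfl fun S _ => ?_
    ring
  linarith

/-- [E8] Cauchy-Schwarz (sq_sum_le_card_mul_sum_sq) and `lin_add_W1_le`. -/
theorem lin_quadratic (f : (Fin n → Bool) → ℝ) (hf : IsBoolean f) (d : ℕ) (hdeg : degree f ≤ d)
    (hd : 1 ≤ d) (hn : 1 ≤ n) : linSum f + ((d : ℝ) - 1) * linSum f ^ 2 / (n : ℝ) ≤ (d : ℝ) := by
  have h1 := lin_add_W1_le f hf d hdeg hd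
  have h2 : linSum f ^ 2 ≤ (n : ℝ) * ∑ i, fourier f {i} ^ 2 := by
    have := sq_sum_le_card_mul_sum_sq (s := (univ : Finset (Fin n))) (f := fun i => fourier f {i})
    simpa [linSum] using this
  have hn0 : (0 : ℝ) < n := by exact_mod_cast hn
  have hd1 : (0 : ℝ) ≤ (d : ℝ) - 1 := by
    have : (1 : ℝ) ≤ d := by exact_mod_cast hd
    linarith
  have h3 : linSum f ^ 2 / (n : ℝ) ≤ ∑ i, fourier f {i} ^ 2 := by
    rw [div_le_iff₀ hn0]
    linarith
  have h4 : ((d : ℝ) - 1) * linSum f ^ 2 / (n : ℝ) ≤ ((d : ℝ) - 1) * ∑ i, fourier f {i} ^ 2 := by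
    rw [mul_div_assoc]
    exact mul_le_mul_of_nonneg_left h3 hd1
  linarith

/-- [E8] -/
theorem lin_le_deg (f : (Fin n → Bool) → ℝ) (hf : IsBoolean f) (d : ℕ) (hdeg : degree f ≤ d)
    (hd : 1 ≤ d) : linSum f ≤ (d : ℝ) := by
  have h1 := lin_add_W1_le f hf d hdeg hd
  have hd1 : (0 : ℝ) ≤ (d : ℝ) - 1 := by
    have : (1 : ℝ) ≤ d := by exact_mod_cast hd
    linarith
  have h2 : 0 ≤ ((d : ℝ) - 1) * ∑ i, fourier f {i} ^ 2 :=
    mul_nonneg hd1 (Finset.sum_nonneg fun i _ => sq_nonneg _)
  linarith

end Vale.Agent.P047.Up
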