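import Vale.Agent.P047.Up.Moment

/-! M(d) <= 0.97 d for d >= 30. -/

namespace Vale.Agent.P047.Up

open Finset Vale.Agent.P047

theorem upper_bound (d : ℕ) (hd : 30 ≤ d) (n : ℕ) (f : (Fin n → Bool) → ℝ) (hf : IsBoolean f)
    (hdeg : degree f ≤ d) : linSum f ≤ (97 / 100) * (d : ℝ) := by
  by_contra hcon
  have hL : (97 / 100) * (d : ℝ) < linSum f := not_le.mp hcon
  have hd' : (30 : ℝ) ≤ (d : ℝ) := by exact_mod_cast hd
  have hL1 : linSum f ≤ (d : ℝ) := lin_le_deg f hf d hdeg (by omega)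
  have hL0 : 0 ≤ linSum f := by nlinarith
  have hm : 1 ≤ 4 * d ^ 2 := by nlinarith
  obtain ⟨b, hb⟩ := exists_gb (m := 4 * d ^ 2) f hm
  have h1 := le_trans (avg_lower f hf d hdeg hd hL0 hL1 (4 * d ^ 2) hm) hb
  have h2 := lin_quadratic (gb f b) (gb_boolean f hf b) d (degree_gb_le f d hdeg b) (by omega) hm
  set x := linSum (gb f b) with hx
  have hcast : ((4 * d ^ 2 : ℕ) : ℝ) = 4 * (d : ℝ) ^ 2 := by push_cast; ring
  rw [hcast] at h1 h2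
  have e1 : (103 / 200) * (d : ℝ) ^ 3 / (4 * (d : ℝ) ^ 2) = (103 / 800) * (d : ℝ) := by
    field_simp
    ring
  rw [e1] at h1
  have hx1 : (673 / 800) * (d : ℝ) < x := by linarith
  have hpos : (0 : ℝ) < 4 * (d : ℝ) ^ 2 := by positivity
  have h3 : x * (4 * (d : ℝ) ^ 2) + ((d : ℝ) - 1) * x ^ 2 ≤ (d : ℝ) * (4 * (d : ℝ) ^ 2) := by
    have := mul_le_mul_of_nonneg_right h2 hpos.le
    have e2 : (x + ((d : ℝ) - 1) * x ^ 2 / (4 * (d : ℝ) ^ 2)) * (4 * (d : ℝ) ^ 2) =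
        x * (4 * (d : ℝ) ^ 2) + ((d : ℝ) - 1) * x ^ 2 := by
      field_simp
    rw [e2] at this
    exact this
  have hx2 : ((673 / 800) * (d : ℝ)) ^ 2 ≤ x ^ 2 := by
    apply pow_le_pow_left₀ (by positivity) hx1.le
  have h4 : ((d : ℝ) - 1) * ((673 / 800) * (d : ℝ)) ^ 2 ≤ ((d : ℝ) - 1) * x ^ 2 :=
    mul_le_mul_of_nonneg_left hx2 (by linarith)
  have h5 : (673 / 800) * (d : ℝ) * (4 * (d : ℝ) ^ 2) ≤ x * (4 * (d : ℝ) ^ 2) :=
    mul_le_mul_of_nonneg_right hx1.le hpos.le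
  have h6 : (673 / 800) * (d : ℝ) * (4 * (d : ℝ) ^ 2) + ((d : ℝ) - 1) * ((673 / 800) * (d : ℝ)) ^ 2 ≤
      (d : ℝ) * (4 * (d : ℝ) ^ 2) := by linarith
  have hd2 : (0 : ℝ) < (d : ℝ) ^ 2 := by positivity
  nlinarith [mul_pos hd2 (by linarith : (0 : ℝ) < (d : ℝ) - 29)]

end Vale.Agent.P047.Up
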