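import Vale.Agent.P047.Up.Ident
import Vale.Agent.P047.Beat.Comp

/-! Second and fourth moments of s(y), and the lower bound for the average of L(g_b). -/

namespace Vale.Agent.P047.Up

open Finset Vale.Agent.P047

variable {n : ℕ}

/-- [M1] `sum_sq_cube`. -/
theorem sum_ssum_sq (m : ℕ) : ∑ y : Fin m → Bool, ssum y ^ 2 = (m : ℝ) * 2 ^ m := by
  induction m with
  | zero => simp [ssum]
  | succ m ih =>
    rw [sum_cons]
    have h : ∀ y : Fin m → Bool,
        ssum (Fin.cons true y : Fin (m + 1) → Bool) ^ 2 + ssum (Fin.cons false y : Fin (m + 1) → Bool) ^ 2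
          = 2 * ssum y ^ 2 + 2 := by
      intro y
      have e1 : ssum (Fin.cons true y : Fin (m + 1) → Bool) = 1 + ssum y := by
        unfold ssum; rw [Fin.sum_univ_succ]; simp [sgn]
      have e2 : ssum (Fin.cons false y : Fin (m + 1) → Bool) = -1 + ssum y := by
        unfold ssum; rw [Fin.sum_univ_succ]; simp [sgn]
      rw [e1, e2]
      ring
    rw [Finset.sum_congr rfl fun y _ => h y, Finset.sum_add_distrib, ← Finset.mul_sum, ih]
    simp only [Finset.sum_const, Finset.card_univ, Fintype.card_fun, Fintype.card_bool,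
      Fintype.card_fin, nsmul_eq_mul]
    push_cast
    ring

theorem ssum_cons' (m : ℕ) (b : Bool) (y : Fin m → Bool) :
    ssum (Fin.cons b y : Fin (m + 1) → Bool) = sgn b + ssum y := by
  unfold ssum
  rw [Fin.sum_univ_succ]
  simp

/-- [M2] induction on m with `sum_cons` (Beat/Comp.lean) and Fin.sum_univ_succ:
(s+1)^4 + (s-1)^4 = 2 s^4 + 12 s^2 + 2, with `sum_ssum_sq`. -/
theorem sum_ssum_four (m : ℕ) :
    ∑ y : Fin m → Bool, ssum y ^ 4 = (3 * (m : ℝ) ^ 2 - 2 * (m : ℝ)) * 2 ^ m := by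
  induction m with
  | zero => simp [ssum]
  | succ m ih =>
    rw [sum_cons]
    have h : ∀ y : Fin m → Bool,
        ssum (Fin.cons true y : Fin (m + 1) → Bool) ^ 4 + ssum (Fin.cons false y : Fin (m + 1) → Bool) ^ 4
          = 2 * ssum y ^ 4 + 12 * ssum y ^ 2 + 2 := by
      intro y
      rw [ssum_cons', ssum_cons', sgn_true, sgn_false]
      ring
    rw [Finset.sum_congr rfl fun y _ => h y, Finset.sum_add_distrib, Finset.sum_add_distrib,
      ← Finset.mul_sum, ← Finset.mul_sum, ih, sum_ssum_sq]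
    simp only [Finset.sum_const, Finset.card_univ, Fintype.card_fun, Fintype.card_bool,
      Fintype.card_fin, nsmul_eq_mul]
    push_cast
    ring

/-- [M3] |s(y)| <= m. -/
theorem abs_ssum_le (m : ℕ) (y : Fin m → Bool) : |ssum y| ≤ (m : ℝ) := by
  unfold ssum
  refine (Finset.abs_sum_le_sum_abs _ _).trans ?_
  have h : ∀ c ∈ (univ : Finset (Fin m)), |sgn (y c)| ≤ 1 := by
    intro c _
    cases y c <;> simp [sgn]
  refine (Finset.sum_le_sum h).trans ?_
  simp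

/-- [M3] s(not y) = - s(y); reindex the sum by the involution y -> not y (`sgn_not`). -/
theorem sum_ssum_symm (m : ℕ) (F : ℝ → ℝ) :
    ∑ y : Fin m → Bool, F (ssum y) = ∑ y : Fin m → Bool, F (-ssum y) := by
  have hinv : Function.Involutive (fun (y : Fin m → Bool) (c : Fin m) => !(y c)) := by
    intro y; funext c; simp
  refine Fintype.sum_equiv hinv.toPerm _ _ fun y => ?_
  congr 1
  unfold ssum
  rw [← Finset.sum_neg_distrib]
  refine Finset.sum_congr rfl fun c _ => ?_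
  show sgn (y c) = -sgn (!(y c))
  cases y c <;> simp [sgn]

/-- [M4] pointwise: with s = s(y), s (p(s/m) - p(-s/m)) >= 2 L s^2/m - (103/300) d^3 s^4/m^3
(`pmu_odd_lower` with mu = |s|/m, cases on the sign of s). -/
theorem pointwise_lower (f : (Fin n → Bool) → ℝ) (hf : IsBoolean f) (d : ℕ) (hdeg : degree f ≤ d)
    (hd : 30 ≤ d) (hL0 : 0 ≤ linSum f) (hL1 : linSum f ≤ (d : ℝ)) (m : ℕ) (hm : 1 ≤ m) (s : ℝ)
    (hs : |s| ≤ (m : ℝ)) :
    2 * linSum f * s ^ 2 / (m : ℝ) - (103 / 300) * (d : ℝ) ^ 3 * s ^ 4 / (m : ℝ) ^ 3 ≤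
      s * (pmu f (s / (m : ℝ)) - pmu f (-s / (m : ℝ))) := by
  have hm0 : (0 : ℝ) < m := by exact_mod_cast hm
  have hs' := abs_le.1 hs
  rcases le_total 0 s with h0 | h0
  · have h := pmu_odd_lower f hf d hdeg hd hL0 hL1 (s / m) (by positivity)
      (by rw [div_le_one hm0]; exact hs'.2)
    have h2 := mul_le_mul_of_nonneg_left h h0
    rw [neg_div]
    refine le_trans (le_of_eq ?_) h2
    field_simp
  · have h0' : 0 ≤ -s := by linarith
    have h := pmu_odd_lower f hf d hdeg hd hL0 hL1 (-s / m) (by positivity)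
      (by rw [div_le_one hm0]; linarith [hs'.1])
    have h2 := mul_le_mul_of_nonneg_left h h0'
    have e : -(-s / (m : ℝ)) = s / m := by ring
    rw [e] at h2
    have e2 : s * (pmu f (s / (m : ℝ)) - pmu f (-s / (m : ℝ))) =
        -s * (pmu f (-s / (m : ℝ)) - pmu f (s / (m : ℝ))) := by ring
    rw [e2]
    refine le_trans (le_of_eq ?_) h2
    field_simp
    ring

/-- [M5] 2 sum_y s p(s/m) = sum_y s (p(s/m) - p(-s/m)) (`sum_ssum_symm`), then `pointwise_lower`, `sum_ssum_sq`,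
`sum_ssum_four` (3 m^2 - 2 m <= 3 m^2). -/
theorem avg_lower (f : (Fin n → Bool) → ℝ) (hf : IsBoolean f) (d : ℕ) (hdeg : degree f ≤ d)
    (hd : 30 ≤ d) (hL0 : 0 ≤ linSum f) (hL1 : linSum f ≤ (d : ℝ)) (m : ℕ) (hm : 1 ≤ m) :
    linSum f - (103 / 200) * (d : ℝ) ^ 3 / (m : ℝ) ≤
      (∑ y : Fin m → Bool, ssum y * pmu f (ssum y / (m : ℝ))) / 2 ^ m := by
  have hm0 : (0 : ℝ) < m := by exact_mod_cast hm
  have h1 : ∑ y : Fin m → Bool, ssum y * pmu f (ssum y / (m : ℝ)) =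
      ∑ y : Fin m → Bool, (-ssum y) * pmu f (-ssum y / (m : ℝ)) :=
    sum_ssum_symm m (fun t => t * pmu f (t / (m : ℝ)))
  have h2 : 2 * ∑ y : Fin m → Bool, ssum y * pmu f (ssum y / (m : ℝ)) =
      ∑ y : Fin m → Bool, ssum y * (pmu f (ssum y / (m : ℝ)) - pmu f (-ssum y / (m : ℝ))) := by
    rw [two_mul]
    nth_rewrite 2 [h1]
    rw [← sum_add_distrib]
    refine sum_congr rfl fun y _ => ?_
    ring
  have h3 : ∑ y : Fin m → Bool, (2 * linSum f * ssum y ^ 2 / (m : ℝ) -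
      (103 / 300) * (d : ℝ) ^ 3 * ssum y ^ 4 / (m : ℝ) ^ 3) ≤
      2 * ∑ y : Fin m → Bool, ssum y * pmu f (ssum y / (m : ℝ)) := by
    rw [h2]
    exact sum_le_sum fun y _ =>
      pointwise_lower f hf d hdeg hd hL0 hL1 m hm (ssum y) (abs_ssum_le m y)
  have h4 : ∑ y : Fin m → Bool, (2 * linSum f * ssum y ^ 2 / (m : ℝ) -
      (103 / 300) * (d : ℝ) ^ 3 * ssum y ^ 4 / (m : ℝ) ^ 3) =
      2 * linSum f / (m : ℝ) * ((m : ℝ) * 2 ^ m) -
        (103 / 300) * (d : ℝ) ^ 3 / (m : ℝ) ^ 3 * ((3 * (m : ℝ) ^ 2 - 2 * (m : ℝ)) * 2 ^ m) := by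
    rw [sum_sub_distrib, ← sum_ssum_sq, ← sum_ssum_four, mul_sum, mul_sum]
    congr 1 <;> refine sum_congr rfl fun y _ => ?_ <;> ring
  have h5 : (103 / 300) * (d : ℝ) ^ 3 / (m : ℝ) ^ 3 * ((3 * (m : ℝ) ^ 2 - 2 * (m : ℝ)) * 2 ^ m) ≤
      (103 / 300) * (d : ℝ) ^ 3 / (m : ℝ) ^ 3 * ((3 * (m : ℝ) ^ 2) * 2 ^ m) := by
    gcongr
    linarith
  have e1 : 2 * linSum f / (m : ℝ) * ((m : ℝ) * 2 ^ m) = 2 * (linSum f * 2 ^ m) := by
    field_simp
  have e2 : (103 / 300) * (d : ℝ) ^ 3 / (m : ℝ) ^ 3 * ((3 * (m : ℝ) ^ 2) * 2 ^ m) =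
      2 * ((103 / 200) * (d : ℝ) ^ 3 / (m : ℝ) * 2 ^ m) := by
    field_simp
    ring
  rw [le_div_iff₀ (by positivity), sub_mul]
  linarith

end Vale.Agent.P047.Up
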