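import Vale.Agent.P047.Up.Taylor
import Vale.Agent.P047.Up.Infl

/-!
The bias polynomial p(mu) = E_mu f of a Boolean function and the lower bound for its odd part.
-/

namespace Vale.Agent.P047.Up

open Finset Vale.Agent.P047

variable {n : ℕ}

/-- expectation of f under the product measure with all coordinates of mean mu. -/
noncomputable def pmu (f : (Fin n → Bool) → ℝ) (μ : ℝ) : ℝ :=
  ∑ x : Fin n → Bool, f x * ∏ i, ((1 + μ * sgn (x i)) / 2)

/-- [P1] prod_i (1 + mu x_i) = sum_S mu^|S| chi S x (Finset.prod_one_add or Finset.prod_add), prod of halves = 1/2^n. -/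
theorem pmu_eq (f : (Fin n → Bool) → ℝ) (μ : ℝ) :
    pmu f μ = ∑ S : Finset (Fin n), fourier f S * μ ^ S.card := by
  unfold pmu fourier
  have h1 : ∀ x : Fin n → Bool, ∏ i, ((1 + μ * sgn (x i)) / 2) =
      (∑ S : Finset (Fin n), μ ^ S.card * chi S x) / 2 ^ n := by
    intro x
    rw [Finset.prod_div_distrib, Finset.prod_const, Finset.card_univ, Fintype.card_fin,
      Finset.prod_one_add]
    congr 1
    simp only [Finset.powerset_univ]
    apply Finset.sum_congr rfl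
    intro S _
    rw [Finset.prod_mul_distrib, Finset.prod_const, chi]
  simp_rw [h1, Fintype.card_fin, mul_div_assoc', Finset.mul_sum, Finset.sum_div, Finset.sum_mul]
  rw [Finset.sum_comm]
  apply Finset.sum_congr rfl
  intro S _
  apply Finset.sum_congr rfl
  intro x _
  ring

/-- [P2] the weights prod_i (1 + mu x_i)/2 are nonnegative and sum to 1 (`sum_tilt` or `sum_cube_prod`). -/
theorem abs_pmu_le (f : (Fin n → Bool) → ℝ) (hf : IsBoolean f) (μ : ℝ) (hμ : |μ| ≤ 1) :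
    |pmu f μ| ≤ 1 := by
  have hμ' := abs_le.1 hμ
  have hw : ∀ x : Fin n → Bool, 0 ≤ ∏ i, ((1 + μ * sgn (x i)) / 2) := by
    intro x
    refine Finset.prod_nonneg fun i _ => ?_
    unfold sgn
    cases x i <;> simp <;> linarith [hμ'.1, hμ'.2]
  have hs : ∑ x : Fin n → Bool, ∏ i, ((1 + μ * sgn (x i)) / 2) = 1 := by
    rw [sum_cube_prod (fun _ b => (1 + μ * sgn b) / 2)]
    refine Finset.prod_eq_one fun i _ => ?_
    simp [sgn]
    ring
  unfold pmu
  calc |∑ x : Fin n → Bool, f x * ∏ i, ((1 + μ * sgn (x i)) / 2)|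
      ≤ ∑ x : Fin n → Bool, |f x * ∏ i, ((1 + μ * sgn (x i)) / 2)| :=
        Finset.abs_sum_le_sum_abs _ _
    _ = ∑ x : Fin n → Bool, ∏ i, ((1 + μ * sgn (x i)) / 2) := by
        refine Finset.sum_congr rfl fun x _ => ?_
        rw [abs_mul, abs_of_nonneg (hw x)]
        rcases hf x with h | h <;> simp [h]
    _ = 1 := hs

/-- [P3] `pmu_eq`; terms with card S > d vanish (`fourier_eq_zero_of_degree_lt`), the others are multiples of
sin^k with k <= d (`sin_pow_mem`); Submodule.sum_mem, smul_mem. -/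
theorem pmu_sin_mem (f : (Fin n → Bool) → ℝ) (d : ℕ) (hdeg : degree f ≤ d) :
    (fun θ : ℝ => ((pmu f (Real.sin θ) : ℝ) : ℂ)) ∈ TP d := by
  have h : (fun θ : ℝ => ((pmu f (Real.sin θ) : ℝ) : ℂ)) =
      ∑ S : Finset (Fin n), ((fourier f S : ℝ) : ℂ) •
        (fun θ : ℝ => ((Real.sin θ : ℝ) : ℂ) ^ S.card) := by
    funext θ
    rw [pmu_eq, Finset.sum_apply]
    push_cast
    rfl
  rw [h]
  refine Submodule.sum_mem _ fun S _ => ?_
  by_cases hS : S.card ≤ d
  · exact Submodule.smul_mem _ _ (sin_pow_mem d S.card hS)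
  · have h0 : fourier f S = 0 := fourier_eq_zero_of_degree_lt f S (by omega)
    rw [h0]
    simp

/-- [P4] `pmu_eq`: derivative of mu -> sum_S fh(S) mu^|S| at 0 is the sum over the singletons; chain rule with sin. -/
theorem pmu_sin_deriv (f : (Fin n → Bool) → ℝ) :
    HasDerivAt (fun θ : ℝ => pmu f (Real.sin θ)) (linSum f) 0 := by
  have h1 : (fun θ : ℝ => pmu f (Real.sin θ)) =
      fun θ => ∑ S : Finset (Fin n), fourier f S * (Real.sin θ) ^ S.card := by
    funext θ; exact pmu_eq f _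
  rw [h1]
  have h2 : ∀ S : Finset (Fin n), HasDerivAt (fun θ : ℝ => fourier f S * (Real.sin θ) ^ S.card)
      (fourier f S * ((S.card : ℝ) * (Real.sin 0) ^ (S.card - 1) * Real.cos 0)) 0 := by
    intro S
    exact ((Real.hasDerivAt_sin 0).pow S.card).const_mul _
  have h3 := HasDerivAt.fun_sum (u := Finset.univ) (fun S _ => h2 S)
  have h4 : linSum f = ∑ S : Finset (Fin n),
      fourier f S * ((S.card : ℝ) * (Real.sin 0) ^ (S.card - 1) * Real.cos 0) := ?_
  · rw [h4]; exact h3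
  unfold linSum
  simp only [Real.sin_zero, Real.cos_zero, mul_one]
  rw [← Finset.sum_subset (s₁ := Finset.univ.image (fun i : Fin n => ({i} : Finset (Fin n))))
    (Finset.subset_univ _)]
  · rw [Finset.sum_image (by intro a _ b _ h; exact Finset.singleton_injective h)]
    simp
  · intro S _ hS
    have hne : S.card ≠ 1 := by
      intro h
      obtain ⟨a, rfl⟩ := Finset.card_eq_one.mp h
      exact hS (Finset.mem_image_of_mem _ (Finset.mem_univ a))
    rcases Nat.lt_or_gt_of_ne hne with h | h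
    · have h0 : S.card = 0 := by omega
      simp [h0]
    · have h0 : S.card - 1 ≠ 0 := by omega
      simp [h0]

/-- [P5] q theta = pmu f (sin theta) as a complex function is in TP d (`pmu_sin_mem`), bounded by 1 (`abs_pmu_le`),
rD d q 0 = linSum f by uniqueness of the derivative (`hasDerivAt_TP`, `pmu_sin_deriv`, HasDerivAt.ofReal_comp,
HasDerivAt.unique); then `trig_odd_lower`. -/
theorem pmu_theta (f : (Fin n → Bool) → ℝ) (hf : IsBoolean f) (d : ℕ) (hdeg : degree f ≤ d)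
    (hd : 1 ≤ d) (t : ℝ) (ht : 0 ≤ t) :
    2 * linSum f * t - (d : ℝ) ^ 3 * t ^ 3 / 3 ≤ pmu f (Real.sin t) - pmu f (-Real.sin t) := by
  have hq := pmu_sin_mem f d hdeg
  have hB : ∀ θ : ℝ, ‖((pmu f (Real.sin θ) : ℝ) : ℂ)‖ ≤ 1 := by
    intro θ
    rw [Complex.norm_real, Real.norm_eq_abs]
    exact abs_pmu_le f hf (Real.sin θ) (Real.abs_sin_le_one θ)
  have hD1 := hasDerivAt_TP d hd _ hq 0
  have hD2 : HasDerivAt (fun θ : ℝ => ((pmu f (Real.sin θ) : ℝ) : ℂ)) ((linSum f : ℝ) : ℂ) 0 :=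
    (pmu_sin_deriv f).ofReal_comp
  have hu := hD1.unique hD2
  have hmain := trig_odd_lower d hd _ hq hB t ht
  rw [hu] at hmain
  simpa [Real.sin_neg] using hmain

/-- [P6] pure real analysis: for 0 <= mu <= 1/10, t = arcsin mu satisfies mu <= t and t^3 <= (103/100) mu^3.
(t <= (pi/2) mu <= 0.16 by Real.mul_le_sin; mu = sin t > t - t^3/4 by Real.sin_gt_sub_cube, so
mu >= t (1 - 0.0064).) -/
theorem arcsin_cube_le (μ : ℝ) (h0 : 0 ≤ μ) (h1 : μ ≤ 1 / 10) :
    μ ≤ Real.arcsin μ ∧ Real.arcsin μ ^ 3 ≤ (103 / 100) * μ ^ 3 := by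
  set t := Real.arcsin μ with ht
  have ht0 : 0 ≤ t := Real.arcsin_nonneg.mpr h0
  have hsin : Real.sin t = μ := Real.sin_arcsin (by linarith) (by linarith)
  have ht2 : t ≤ Real.pi / 2 := Real.arcsin_le_pi_div_two μ
  have h2 := Real.mul_le_sin ht0 ht2
  have hpi : Real.pi ≤ 3.15 := Real.pi_lt_d2.le
  have hpi0 : 0 < Real.pi := Real.pi_pos
  have hle : μ ≤ t := by
    rw [← hsin]; exact Real.sin_le ht0
  refine ⟨hle, ?_⟩
  have ht16 : t ≤ 0.16 := by
    have e : t = (Real.pi / 2) * (2 / Real.pi * t) := by field_simp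
    rw [hsin] at h2
    have : (Real.pi / 2) * (2 / Real.pi * t) ≤ (Real.pi / 2) * μ :=
      mul_le_mul_of_nonneg_left h2 (by positivity)
    have h3 : (Real.pi / 2) * μ ≤ (3.15 / 2) * (1 / 10) := by
      apply mul_le_mul (by linarith) h1 h0 (by norm_num)
    rw [e]
    refine le_trans this (le_trans h3 (by norm_num))
  have hcube : t - t ^ 3 / 4 ≤ μ := by
    rcases ht0.eq_or_lt with h | h
    · rw [← h]; simpa using h0
    · rw [← hsin]
      have h6 := (Real.sin_gt_sub_cube h).le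
      have h7 : 0 ≤ t ^ 3 := by positivity
      linarith
  have hkey : t ≤ μ / 0.9936 := by
    rw [le_div_iff₀ (by norm_num)]
    have : t ^ 3 ≤ t * 0.0256 := by
      have : t ^ 2 ≤ 0.0256 := by nlinarith
      calc t ^ 3 = t * t ^ 2 := by ring
        _ ≤ t * 0.0256 := mul_le_mul_of_nonneg_left this ht0
    linarith
  have h3 : t ^ 3 ≤ (μ / 0.9936) ^ 3 := pow_le_pow_left₀ ht0 hkey 3
  have hμ3 : 0 ≤ μ ^ 3 := by positivity
  have : (μ / 0.9936) ^ 3 ≤ (103 / 100) * μ ^ 3 := by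
    rw [div_pow]
    rw [div_le_iff₀ (by norm_num)]
    nlinarith
  linarith

/-- [P7] Case d mu >= 3: the left side is at most 2 s - (103/300) s^3 <= -2 with s = d mu >= 3, and the right side is
at least -2 (`abs_pmu_le`).  Case d mu < 3: mu < 1/10; `pmu_theta` with t = arcsin mu and `arcsin_cube_le`. -/
theorem pmu_odd_lower (f : (Fin n → Bool) → ℝ) (hf : IsBoolean f) (d : ℕ) (hdeg : degree f ≤ d)
    (hd : 30 ≤ d) (hL0 : 0 ≤ linSum f) (hL1 : linSum f ≤ (d : ℝ)) (μ : ℝ) (h0 : 0 ≤ μ) (h1 : μ ≤ 1) :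
    2 * linSum f * μ - (103 / 300) * (d : ℝ) ^ 3 * μ ^ 3 ≤ pmu f μ - pmu f (-μ) := by
  have hd30 : (30 : ℝ) ≤ (d : ℝ) := by exact_mod_cast hd
  by_cases hs : 3 ≤ (d : ℝ) * μ
  · have ha := abs_pmu_le f hf μ (by rw [abs_of_nonneg h0]; exact h1)
    have hb := abs_pmu_le f hf (-μ) (by rw [abs_neg, abs_of_nonneg h0]; exact h1)
    have ha' := (abs_le.mp ha).1
    have hb' := (abs_le.mp hb).2
    have h2 : 2 * linSum f * μ ≤ 2 * ((d : ℝ) * μ) := by nlinarith
    have h3 : (d : ℝ) ^ 3 * μ ^ 3 = ((d : ℝ) * μ) ^ 3 := by ring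
    have h4 : 2 * ((d : ℝ) * μ) - (103 / 300) * ((d : ℝ) * μ) ^ 3 ≤ -2 := by
      set s := (d : ℝ) * μ with hsdef
      have h5 : 9 ≤ s ^ 2 := by nlinarith
      have h6 : s ^ 3 = s * s ^ 2 := by ring
      have h7 : s * 9 ≤ s * s ^ 2 := mul_le_mul_of_nonneg_left h5 (by linarith)
      rw [h6]
      linarith
    have h8 : (103 / 300) * (d : ℝ) ^ 3 * μ ^ 3 = (103 / 300) * ((d : ℝ) * μ) ^ 3 := by ring
    rw [h8]
    linarith
  · have hs' : (d : ℝ) * μ < 3 := not_le.mp hs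
    have hμ10 : μ ≤ 1 / 10 := by nlinarith
    obtain ⟨hle, hcube⟩ := arcsin_cube_le μ h0 hμ10
    have ht0 : 0 ≤ Real.arcsin μ := Real.arcsin_nonneg.mpr h0
    have hsin : Real.sin (Real.arcsin μ) = μ := Real.sin_arcsin (by linarith) (by linarith)
    have hth := pmu_theta f hf d hdeg (by omega) (Real.arcsin μ) ht0
    rw [hsin] at hth
    have h2 : 2 * linSum f * μ ≤ 2 * linSum f * Real.arcsin μ :=
      mul_le_mul_of_nonneg_left hle (by linarith)
    have hd3 : 0 ≤ (d : ℝ) ^ 3 := by positivity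
    have h3 : (d : ℝ) ^ 3 * Real.arcsin μ ^ 3 ≤ (d : ℝ) ^ 3 * ((103 / 100) * μ ^ 3) :=
      mul_le_mul_of_nonneg_left hcube hd3
    linarith

end Vale.Agent.P047.Up
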