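import Mathlib

/-!
M. Riesz interpolation formula, algebraic core.  See notes/P047_upper.md section B.
Nodes theta_k = (2k+1) pi / (2d), k = 0 .. 2d-1; w_k = exp(i theta_k) are the 2d-th roots of -1;
weights rwt d k = (-1)^k / (4 d sin^2(theta_k / 2)).
Key identity [R6]: for every integer j with |j| <= d,  sum_k rwt d k * exp(i j theta_k) = i j.
-/

namespace Vale.Agent.P047.Up

open Finset

/-- the nodes theta_k = (2k+1) pi / (2d). -/
noncomputable def rth (d k : ℕ) : ℝ := (2 * (k : ℝ) + 1) * Real.pi / (2 * (d : ℝ))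

/-- the weights of the Riesz formula. -/
noncomputable def rwt (d k : ℕ) : ℝ := (-1) ^ k / (4 * (d : ℝ) * Real.sin (rth d k / 2) ^ 2)

/-- w_k = exp(i theta_k). -/
noncomputable def nod (d k : ℕ) : ℂ := Complex.exp ((rth d k : ℂ) * Complex.I)

/-- [R1] w^d = exp(i (2k+1) pi / 2) = i (-1)^k.  (Complex.exp_nat_mul, then induction on k or
exp_add, Complex.exp_pi_mul_I, exp(i pi/2) = i.) -/
theorem nod_pow_d (d k : ℕ) (hd : 1 ≤ d) : nod d k ^ d = Complex.I * (-1) ^ k := by
  have hd0 : (d : ℂ) ≠ 0 := by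
    exact_mod_cast (by omega : d ≠ 0)
  unfold nod rth
  rw [← Complex.exp_nat_mul]
  have h1 : (d : ℂ) * (((((2 * (k : ℝ) + 1) * Real.pi / (2 * (d : ℝ)) : ℝ)) : ℂ) * Complex.I)
      = (Real.pi / 2 : ℂ) * Complex.I + (k : ℂ) * ((Real.pi : ℂ) * Complex.I) := by
    push_cast
    field_simp
    ring
  rw [h1, Complex.exp_add, Complex.exp_nat_mul, Complex.exp_pi_mul_I]
  congr 1
  rw [Complex.exp_mul_I]
  have hc : Complex.cos ((Real.pi : ℂ) / 2) = 0 := by
    have := Complex.ofReal_cos (Real.pi / 2)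
    rw [Real.cos_pi_div_two] at this
    push_cast at this
    exact this.symm
  have hs : Complex.sin ((Real.pi : ℂ) / 2) = 1 := by
    have := Complex.ofReal_sin (Real.pi / 2)
    rw [Real.sin_pi_div_two] at this
    push_cast at this
    exact this.symm
  rw [hc, hs]
  ring

/-- [R1] square of `nod_pow_d`. -/
theorem nod_pow_two_d (d k : ℕ) (hd : 1 ≤ d) : nod d k ^ (2 * d) = -1 := by
  rw [mul_comm, pow_mul, nod_pow_d d k hd, mul_pow, Complex.I_sq, ← pow_mul, mul_comm k 2, pow_mul]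
  simp

/-- [R1] from `nod_pow_two_d`. -/
theorem nod_ne_one (d k : ℕ) (hd : 1 ≤ d) : nod d k ≠ 1 := by
  intro h
  have := nod_pow_two_d d k hd
  rw [h, one_pow] at this
  norm_num at this

theorem nod_ne_zero (d k : ℕ) : nod d k ≠ 0 := Complex.exp_ne_zero _

/-- [R2] w_k = w_0 * om^k with om = exp(i pi / d); geometric sum: (om^s)^(2d) = 1 and om^s is not 1
for 0 < s < 2d (Complex.exp_eq_one_iff). -/
theorem sum_nod_pow (d s : ℕ) (h0 : 0 < s) (h1 : s < 2 * d) :
    ∑ k ∈ range (2 * d), nod d k ^ s = 0 := by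
  have hd : 0 < d := by omega
  have hdC : (d : ℂ) ≠ 0 := by exact_mod_cast hd.ne'
  set c : ℂ := Complex.exp ((s : ℂ) * Real.pi / (2 * d) * Complex.I) with hc
  set r : ℂ := Complex.exp ((s : ℂ) * Real.pi / d * Complex.I) with hr
  have hnod : ∀ k : ℕ, nod d k ^ s = c * r ^ k := by
    intro k
    rw [hc, hr]
    unfold nod rth
    rw [← Complex.exp_nat_mul, ← Complex.exp_nat_mul, ← Complex.exp_add]
    congr 1
    push_cast
    field_simp
    ring
  have hr1 : r ^ (2 * d) = 1 := by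
    rw [hr, ← Complex.exp_nat_mul]
    have : ((2 * d : ℕ) : ℂ) * ((s : ℂ) * Real.pi / d * Complex.I)
        = (s : ℂ) * (2 * Real.pi * Complex.I) := by
      push_cast; field_simp
    rw [this]
    exact Complex.exp_nat_mul_two_pi_mul_I s
  have hrne : r ≠ 1 := by
    intro h
    rw [hr, Complex.exp_eq_one_iff] at h
    obtain ⟨m, hm⟩ := h
    have hpi : (Real.pi : ℂ) ≠ 0 := by exact_mod_cast Real.pi_ne_zero
    have h2 : (s : ℂ) = 2 * m * d := by
      have h3 : (s : ℂ) * Real.pi / d * Complex.I = ((s : ℂ) / d) * (Real.pi * Complex.I) := by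
        field_simp
      have h4 : (m : ℂ) * (2 * Real.pi * Complex.I) = (2 * m) * (Real.pi * Complex.I) := by ring
      rw [h3, h4] at hm
      have h5 := mul_right_cancel₀ (mul_ne_zero hpi Complex.I_ne_zero) hm
      field_simp at h5
      linear_combination h5
    have h3 : (s : ℤ) = 2 * m * d := by exact_mod_cast h2
    have hs0 : (0 : ℤ) < s := by exact_mod_cast h0
    have hs1 : (s : ℤ) < 2 * d := by exact_mod_cast h1
    have hdz : (0 : ℤ) < d := by exact_mod_cast hd
    have hm0 : 0 < m := by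
      by_contra hneg
      rw [not_lt] at hneg
      nlinarith
    have hm1 : m < 1 := by
      by_contra hneg
      rw [not_lt] at hneg
      nlinarith
    omega
  rw [Finset.sum_congr rfl fun k _ => hnod k, ← Finset.mul_sum, geom_sum_eq hrne, hr1]
  simp

/-- [R3] theta_(2d-1-k) = 2 pi - theta_k. -/
theorem nod_reflect (d k : ℕ) (hd : 1 ≤ d) (hk : k < 2 * d) :
    nod d (2 * d - 1 - k) = (nod d k)⁻¹ := by
  have hd0 : (d : ℂ) ≠ 0 := by
    exact_mod_cast (by omega : d ≠ 0)
  unfold nod rth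
  rw [← Complex.exp_neg]
  have hcast : ((2 * d - 1 - k : ℕ) : ℝ) = 2 * (d : ℝ) - 1 - (k : ℝ) := by
    have : 2 * d - 1 - k + (1 + k) = 2 * d := by omega
    have h2 : ((2 * d - 1 - k : ℕ) : ℝ) + (1 + (k : ℝ)) = 2 * (d : ℝ) := by
      exact_mod_cast this
    linarith
  rw [hcast]
  have h1 : ((((2 * (2 * (d : ℝ) - 1 - (k : ℝ)) + 1) * Real.pi / (2 * (d : ℝ)) : ℝ)) : ℂ) * Complex.I
      = -(((((2 * (k : ℝ) + 1) * Real.pi / (2 * (d : ℝ)) : ℝ)) : ℂ) * Complex.I)
        + 2 * (Real.pi : ℂ) * Complex.I := by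
    push_cast
    field_simp
    ring
  rw [h1, Complex.exp_add, Complex.exp_two_pi_mul_I, mul_one]

/-- [R3] pair k with 2d-1-k (Finset.sum_range_reflect, `nod_reflect`): 1/(1-w) + 1/(1-1/w) = 1. -/
theorem sum_inv_one_sub (d : ℕ) (hd : 1 ≤ d) :
    ∑ k ∈ range (2 * d), 1 / (1 - nod d k) = (d : ℂ) := by
  have hne : ∀ k, (1 - nod d k) ≠ 0 := fun k => sub_ne_zero.mpr (nod_ne_one d k hd).symm
  have h1 : ∑ k ∈ range (2 * d), 1 / (1 - nod d k)
      = ∑ k ∈ range (2 * d), 1 / (1 - nod d (2 * d - 1 - k)) :=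
    (Finset.sum_range_reflect (fun k => 1 / (1 - nod d k)) (2 * d)).symm
  have h2 : ∑ k ∈ range (2 * d), 1 / (1 - nod d k) + ∑ k ∈ range (2 * d), 1 / (1 - nod d k)
      = 2 * (d : ℂ) := by
    nth_rewrite 2 [h1]
    rw [← Finset.sum_add_distrib]
    have : ∀ k ∈ range (2 * d), 1 / (1 - nod d k) + 1 / (1 - nod d (2 * d - 1 - k)) = 1 := by
      intro k hk
      rw [nod_reflect d k hd (Finset.mem_range.mp hk)]
      have a := hne k
      have b := nod_ne_zero d k
      have c : (1 - (nod d k)⁻¹) ≠ 0 := by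
        intro h
        apply a
        have : (nod d k)⁻¹ = 1 := by linear_combination -h
        rw [inv_eq_one] at this
        rw [this]; ring
      have c' : nod d k - 1 ≠ 0 := by
        intro h; apply a; linear_combination -h
      field_simp
      ring
    rw [Finset.sum_congr rfl this]
    simp
  linear_combination (1/2 : ℂ) * h2

/-- [R4] G(s) = sum_k w^(s+1)/(1-w)^2.  G(s+2) - 2 G(s+1) + G(s) = sum_k w^(s+1) = 0 for s+1 < 2d
(`sum_nod_pow`), so G is affine on 0..2d.  G(1) - G(0) = - sum w/(1-w) = sum (1 - 1/(1-w)) = 2d - d = d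
(`sum_inv_one_sub`).  G(2d) = - G(0) (`nod_pow_two_d`), hence G(0) = - d^2. -/
theorem G_formula (d s : ℕ) (hd : 1 ≤ d) (hs : s ≤ 2 * d) :
    ∑ k ∈ range (2 * d), nod d k ^ (s + 1) / (1 - nod d k) ^ 2 = (d : ℂ) * ((s : ℂ) - (d : ℂ)) := by
  set G : ℕ → ℂ := fun s => ∑ k ∈ range (2 * d), nod d k ^ (s + 1) / (1 - nod d k) ^ 2 with hG
  have hne : ∀ k, (1 - nod d k) ≠ 0 := fun k => sub_ne_zero.mpr (nod_ne_one d k hd).symm
  have h2 : ∀ s, s + 1 < 2 * d → G (s + 2) - 2 * G (s + 1) + G s = 0 := by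
    intro s hs
    have h := sum_nod_pow d (s + 1) (Nat.succ_pos s) hs
    rw [← h]
    simp only [hG]
    rw [Finset.mul_sum, ← Finset.sum_sub_distrib, ← Finset.sum_add_distrib]
    apply Finset.sum_congr rfl
    intro k _
    have := hne k
    field_simp
    ring
  have h1 : G 1 - G 0 = d := by
    have h := sum_inv_one_sub d hd
    have h3 : G 1 - G 0 = ∑ k ∈ range (2 * d), (1 - 1 / (1 - nod d k)) := by
      simp only [hG]
      rw [← Finset.sum_sub_distrib]
      apply Finset.sum_congr rfl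
      intro k _
      have := hne k
      field_simp
      ring
    rw [h3, Finset.sum_sub_distrib, h]
    simp
    ring
  have hstep : ∀ s, s < 2 * d → G (s + 1) - G s = d := by
    intro s
    induction s with
    | zero => intro _; exact h1
    | succ n ih =>
      intro hn
      have a := h2 n hn
      have b := ih (by omega)
      linear_combination a + b
  have hlin : ∀ s, s ≤ 2 * d → G s = G 0 + s * d := by
    intro s
    induction s with
    | zero => intro _; simp
    | succ n ih =>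
      intro hn
      have a := hstep n (by omega)
      have b := ih (by omega)
      push_cast
      linear_combination a + b
  have hend : G (2 * d) = - G 0 := by
    simp only [hG]
    rw [← Finset.sum_neg_distrib]
    apply Finset.sum_congr rfl
    intro k _
    rw [pow_succ, nod_pow_two_d d k hd]
    ring
  have h0 : G 0 = - (d : ℂ) ^ 2 := by
    have a := hlin (2 * d) le_rfl
    rw [hend] at a
    push_cast at a
    linear_combination (-1/2 : ℂ) * a
  show G s = _
  rw [hlin s hs, h0]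
  ring

/-- [R5] (-1)^k = - i w^d (`nod_pow_d`) and sin^2(theta/2) = (1 - cos theta)/2 = (2 - w - 1/w)/4
= - (1-w)^2 / (4 w). -/
theorem rwt_eq (d k : ℕ) (hd : 1 ≤ d) :
    (rwt d k : ℂ) = Complex.I * nod d k ^ (d + 1) / ((d : ℂ) * (1 - nod d k) ^ 2) := by
  have hw0 := nod_ne_zero d k
  have hw1 : 1 - nod d k ≠ 0 := sub_ne_zero.2 (nod_ne_one d k hd).symm
  have hpow := nod_pow_d d k hd
  have hd0 : (d : ℂ) ≠ 0 := by
    have : d ≠ 0 := by omega
    exact_mod_cast this
  have hsin : ((Real.sin (rth d k / 2) : ℝ) : ℂ) ^ 2 = -(1 - nod d k) ^ 2 / (4 * nod d k) := by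
    have h1 : Real.sin (rth d k / 2) ^ 2 = 1 / 2 - Real.cos (rth d k) / 2 := by
      rw [Real.sin_sq_eq_half_sub]
      congr 3
      ring
    have h2 : ((Real.sin (rth d k / 2) : ℝ) : ℂ) ^ 2 = 1 / 2 - Complex.cos (rth d k : ℂ) / 2 := by
      have := congrArg (fun t : ℝ => (t : ℂ)) h1
      push_cast at this
      simpa using this
    have h3 : Complex.exp (-(rth d k : ℂ) * Complex.I) = (nod d k)⁻¹ := by
      rw [nod, ← Complex.exp_neg]
      congr 1
      ring
    rw [h2, Complex.cos, h3]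
    change 1 / 2 - (nod d k + (nod d k)⁻¹) / 2 / 2 = _
    field_simp
    ring
  have hk : ((-1 : ℂ)) ^ k = -Complex.I * nod d k ^ d := by
    rw [hpow]
    have := Complex.I_mul_I
    linear_combination ((-1 : ℂ) ^ k) * this
  unfold rwt
  rw [Complex.ofReal_div, Complex.ofReal_mul, Complex.ofReal_mul, Complex.ofReal_pow,
    Complex.ofReal_pow, hsin]
  push_cast
  rw [hk]
  field_simp
  ring

/-- [R6] key identity.  exp(i j theta_k) = w^j; with s = d + j in 0..2d the summand is
(i/d) w^(s+1)/(1-w)^2 (`rwt_eq`), so the sum is (i/d) d (s - d) = i j (`G_formula`). -/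
theorem riesz_key (d : ℕ) (hd : 1 ≤ d) (j : ℤ) (hj : |j| ≤ (d : ℤ)) :
    ∑ k ∈ range (2 * d), (rwt d k : ℂ) * Complex.exp ((j : ℂ) * (rth d k : ℂ) * Complex.I) =
      (j : ℂ) * Complex.I := by
  have hj' := abs_le.1 hj
  obtain ⟨s, hs⟩ : ∃ s : ℕ, (s : ℤ) = d + j :=
    ⟨(d + j).toNat, Int.toNat_of_nonneg (by omega)⟩
  have hs2 : s ≤ 2 * d := by omega
  have hd0 : (d : ℂ) ≠ 0 := by
    have : d ≠ 0 := by omega
    exact_mod_cast this
  have key : ∀ k ∈ range (2 * d),
      (rwt d k : ℂ) * Complex.exp ((j : ℂ) * (rth d k : ℂ) * Complex.I) =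
        (Complex.I / d) * (nod d k ^ (s + 1) / (1 - nod d k) ^ 2) := by
    intro k _
    have hw0 := nod_ne_zero d k
    have hexp : Complex.exp ((j : ℂ) * (rth d k : ℂ) * Complex.I) = nod d k ^ j := by
      rw [nod, ← Complex.exp_int_mul]
      congr 1
      ring
    have hpow : nod d k ^ (s + 1) = nod d k ^ (d + 1) * nod d k ^ j := by
      rw [← zpow_natCast, ← zpow_natCast (nod d k) (d + 1), ← zpow_add₀ hw0]
      congr 1
      push_cast
      omega
    rw [rwt_eq d k hd, hexp, hpow, div_mul_eq_mul_div, div_mul_div_comm, mul_assoc]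
  rw [sum_congr rfl key, ← mul_sum, G_formula d s hd hs2]
  have hsc : (s : ℂ) = d + j := by exact_mod_cast hs
  rw [hsc]
  field_simp
  ring

/-- [R7] `riesz_key` with j = d: exp(i d theta_k) = i (-1)^k (`nod_pow_d`), and
rwt d k * (-1)^k = |rwt d k|. -/
theorem sum_abs_rwt (d : ℕ) (hd : 1 ≤ d) : ∑ k ∈ range (2 * d), |rwt d k| = (d : ℝ) := by
  have h := riesz_key d hd (d : ℤ) (by simp)
  have key : ∀ k ∈ range (2 * d),
      (rwt d k : ℂ) * Complex.exp (((d : ℤ) : ℂ) * (rth d k : ℂ) * Complex.I) =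
        ((|rwt d k| : ℝ) : ℂ) * Complex.I := by
    intro k _
    have hexp : Complex.exp (((d : ℤ) : ℂ) * (rth d k : ℂ) * Complex.I) = Complex.I * (-1) ^ k := by
      rw [← nod_pow_d d k hd, nod, ← Complex.exp_nat_mul]
      congr 1
      push_cast
      ring
    have habs : |rwt d k| = rwt d k * (-1) ^ k := by
      unfold rwt
      rw [abs_div, abs_pow, abs_neg, abs_one, one_pow, abs_of_nonneg (by positivity),
        div_mul_eq_mul_div, ← mul_pow]
      simp
    rw [hexp, habs]
    push_cast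
    ring
  rw [sum_congr rfl key, ← sum_mul] at h
  have h2 := mul_right_cancel₀ Complex.I_ne_zero h
  exact_mod_cast h2

end Vale.Agent.P047.Up
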