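import Vale.Agent.P047.Up.Trig

/-! One-sided third order Taylor estimate and its use for the odd part of a bounded trigonometric polynomial. -/

namespace Vale.Agent.P047.Up

open Finset

/-- [Y1] g is monotone on [0, infinity) (monotoneOn_of_deriv_nonneg on Set.Ici 0, or the mean value theorem). -/
theorem nonneg_of_deriv (g g' : ℝ → ℝ) (hg : ∀ t, HasDerivAt g (g' t) t) (h0 : 0 ≤ g 0)
    (hpos : ∀ t, 0 ≤ t → 0 ≤ g' t) (t : ℝ) (ht : 0 ≤ t) : 0 ≤ g t := by
  have hmono : MonotoneOn g (Set.Ici 0) := by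
    apply monotoneOn_of_deriv_nonneg (convex_Ici 0)
    · exact fun x _ => (hg x).continuousAt.continuousWithinAt
    · exact fun x _ => (hg x).differentiableAt.differentiableWithinAt
    · intro x hx
      rw [interior_Ici] at hx
      rw [(hg x).deriv]
      exact hpos x (le_of_lt hx)
  exact h0.trans (hmono (Set.mem_Ici.mpr le_rfl) (Set.mem_Ici.mpr ht) ht)

/-- [Y2] apply `nonneg_of_deriv` three times: to v2 t + C t, to v1 t - a + C t^2/2, to v t - a t + C t^3/6. -/
theorem cubic_lower (v v1 v2 v3 : ℝ → ℝ) (a C : ℝ)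
    (h1 : ∀ t, HasDerivAt v (v1 t) t) (h2 : ∀ t, HasDerivAt v1 (v2 t) t)
    (h3 : ∀ t, HasDerivAt v2 (v3 t) t)
    (e0 : v 0 = 0) (e1 : v1 0 = a) (e2 : v2 0 = 0) (hC : ∀ t, -C ≤ v3 t) (t : ℝ) (ht : 0 ≤ t) :
    a * t - C * t ^ 3 / 6 ≤ v t := by
  have s2 : ∀ u, 0 ≤ u → 0 ≤ v2 u + C * u := by
    intro u hu
    refine nonneg_of_deriv (fun u => v2 u + C * u) (fun u => v3 u + C) ?_ ?_ ?_ u hu
    · intro w
      have hw : HasDerivAt (fun u : ℝ => C * u) C w := by
        simpa using (hasDerivAt_id w).const_mul C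
      exact (h3 w).add hw
    · simp [e2]
    · intro w _
      linarith [hC w]
  have s1 : ∀ u, 0 ≤ u → 0 ≤ v1 u - a + C * u ^ 2 / 2 := by
    intro u hu
    refine nonneg_of_deriv (fun u => v1 u - a + C * u ^ 2 / 2) (fun u => v2 u + C * u) ?_ ?_ s2 u hu
    · intro w
      have hw : HasDerivAt (fun u : ℝ => C * u ^ 2 / 2) (C * w) w := by
        have h := ((hasDerivAt_pow 2 w).const_mul C).div_const 2
        have e : C * (((2 : ℕ) : ℝ) * w ^ (2 - 1)) / 2 = C * w := by
          norm_num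
          ring
        rw [e] at h
        exact h
      exact ((h2 w).sub_const a).add hw
    · simp [e1]
  have s0 : 0 ≤ v t - a * t + C * t ^ 3 / 6 := by
    refine nonneg_of_deriv (fun u => v u - a * u + C * u ^ 3 / 6)
      (fun u => v1 u - a + C * u ^ 2 / 2) ?_ ?_ s1 t ht
    · intro w
      have hw : HasDerivAt (fun u : ℝ => C * u ^ 3 / 6) (C * w ^ 2 / 2) w := by
        have h := ((hasDerivAt_pow 3 w).const_mul C).div_const 6
        have e : C * (((3 : ℕ) : ℝ) * w ^ (3 - 1)) / 6 = C * w ^ 2 / 2 := by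
          norm_num
          ring
        rw [e] at h
        exact h
      have hw2 : HasDerivAt (fun u : ℝ => a * u) a w := by
        simpa using (hasDerivAt_id w).const_mul a
      exact ((h1 w).sub hw2).add hw
    · simp [e0]
  linarith

/-- [Y3] real part of a differentiable complex valued function of a real variable, and reflection:
if HasDerivAt q (q' t) t for all t then t -> (q t).re - s * (q (-t)).re has derivative (q' t).re + s * (q' (-t)).re. -/
theorem hasDerivAt_re_sub (q q' : ℝ → ℂ) (hq : ∀ t, HasDerivAt q (q' t) t) (s : ℝ) (t : ℝ) :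
    HasDerivAt (fun t => (q t).re - s * (q (-t)).re) ((q' t).re + s * (q' (-t)).re) t := by
  have hre : ∀ t, HasDerivAt (fun t => (q t).re) (q' t).re t := by
    intro t
    have h := (Complex.reCLM.hasFDerivAt (x := q t)).comp_hasDerivAt t (hq t)
    exact h
  have hneg : HasDerivAt (fun t : ℝ => -t) (-1) t := (hasDerivAt_id t).neg
  have h2 : HasDerivAt (fun t => (q (-t)).re) ((q' (-t)).re * (-1)) t :=
    (hre (-t)).comp t hneg
  have h3 := (hre t).sub (h2.const_mul s)
  have e : (q' t).re + s * (q' (-t)).re = (q' t).re - s * ((q' (-t)).re * (-1)) := by ring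
  rw [e]
  exact h3

/-- [Y4] q1 = rD d q, q2 = rD d q1, q3 = rD d q2 are in TP d (`rD_mem`), are the successive derivatives
(`hasDerivAt_TP`) and |q3| <= d^3 (`rD_bound` three times).  Apply `cubic_lower` with
v t = (q t).re - (q (-t)).re, v1 t = (q1 t).re + (q1 (-t)).re, v2 t = (q2 t).re - (q2 (-t)).re,
v3 t = (q3 t).re + (q3 (-t)).re  (`hasDerivAt_re_sub` with s = 1, -1, 1), a = 2 (q1 0).re, C = 2 d^3. -/
theorem trig_odd_lower (d : ℕ) (hd : 1 ≤ d) (q : ℝ → ℂ) (hq : q ∈ TP d) (hB : ∀ θ, ‖q θ‖ ≤ 1)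
    (t : ℝ) (ht : 0 ≤ t) :
    2 * (rD d q 0).re * t - (d : ℝ) ^ 3 * t ^ 3 / 3 ≤ (q t).re - (q (-t)).re := by
  have m1 : rD d q ∈ TP d := rD_mem d q hq
  have m2 : rD d (rD d q) ∈ TP d := rD_mem d _ m1
  have b1 : ∀ θ, ‖rD d q θ‖ ≤ (d : ℝ) * 1 := fun θ => rD_bound d hd q 1 hB θ
  have b2 : ∀ θ, ‖rD d (rD d q) θ‖ ≤ (d : ℝ) * ((d : ℝ) * 1) := fun θ => rD_bound d hd _ _ b1 θ
  have b3 : ∀ θ, ‖rD d (rD d (rD d q)) θ‖ ≤ (d : ℝ) * ((d : ℝ) * ((d : ℝ) * 1)) :=
    fun θ => rD_bound d hd _ _ b2 θ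
  have d1 := hasDerivAt_re_sub q (rD d q) (fun u => hasDerivAt_TP d hd q hq u) 1
  have d2 := hasDerivAt_re_sub (rD d q) (rD d (rD d q)) (fun u => hasDerivAt_TP d hd _ m1 u) (-1)
  have d3 := hasDerivAt_re_sub (rD d (rD d q)) (rD d (rD d (rD d q)))
    (fun u => hasDerivAt_TP d hd _ m2 u) 1
  have key := cubic_lower (fun u => (q u).re - 1 * (q (-u)).re)
    (fun u => (rD d q u).re - (-1) * (rD d q (-u)).re)
    (fun u => (rD d (rD d q) u).re - 1 * (rD d (rD d q) (-u)).re)
    (fun u => (rD d (rD d (rD d q)) u).re + 1 * (rD d (rD d (rD d q)) (-u)).re)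
    (2 * (rD d q 0).re) (2 * (d : ℝ) ^ 3)
    (fun u => by
      have h := d1 u
      convert h using 1
      ring)
    (fun u => by
      have h := d2 u
      convert h using 1
      ring)
    d3 (by simp) (by simp; ring) (by simp)
    (fun u => by
      have h1 := b3 u
      have h2 := b3 (-u)
      have h3 := Complex.abs_re_le_norm (rD d (rD d (rD d q)) u)
      have h4 := Complex.abs_re_le_norm (rD d (rD d (rD d q)) (-u))
      have h5 := neg_abs_le (rD d (rD d (rD d q)) u).re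
      have h6 := neg_abs_le (rD d (rD d (rD d q)) (-u)).re
      have e : (d : ℝ) * ((d : ℝ) * ((d : ℝ) * 1)) = (d : ℝ) ^ 3 := by ring
      rw [e] at h1 h2
      show -(2 * (d : ℝ) ^ 3) ≤ (rD d (rD d (rD d q)) u).re + 1 * (rD d (rD d (rD d q)) (-u)).re
      linarith)
    t ht
  simp only [one_mul] at key
  linarith

end Vale.Agent.P047.Up
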