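import Vale.Agent.P047.Up.Riesz

/-!
Trigonometric polynomials of degree at most d as a complex subspace of functions on the real line,
and Bernstein's inequality in the form: q' = rD d q, rD d q is again in TP d, sup |rD d q| <= d sup |q|.
-/

namespace Vale.Agent.P047.Up

open Finset

/-- e_j(theta) = exp(i j theta). -/
noncomputable def ej (j : ℤ) : ℝ → ℂ := fun θ => Complex.exp ((j : ℂ) * (θ : ℂ) * Complex.I)

/-- trigonometric polynomials of degree at most d. -/
noncomputable def TP (d : ℕ) : Submodule ℂ (ℝ → ℂ) :=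
  Submodule.span ℂ (ej '' {j : ℤ | |j| ≤ (d : ℤ)})

/-- the Riesz operator (equal to the derivative on TP d). -/
noncomputable def rD (d : ℕ) (q : ℝ → ℂ) : ℝ → ℂ :=
  fun θ => ∑ k ∈ range (2 * d), (rwt d k : ℂ) * q (θ + rth d k)

theorem ej_mem (d : ℕ) (j : ℤ) (hj : |j| ≤ (d : ℤ)) : ej j ∈ TP d :=
  Submodule.subset_span ⟨j, hj, rfl⟩

/-- [T1] span induction: e_j(theta + a) = exp(i j a) e_j(theta). -/
theorem TP_shift (d : ℕ) (q : ℝ → ℂ) (hq : q ∈ TP d) (a : ℝ) : (fun θ => q (θ + a)) ∈ TP d := by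
  unfold TP at hq
  induction hq using Submodule.span_induction with
  | mem x hx =>
    obtain ⟨j, hj, rfl⟩ := hx
    have h : (fun θ : ℝ => ej j (θ + a)) =
        Complex.exp ((j : ℂ) * (a : ℂ) * Complex.I) • ej j := by
      funext θ
      simp only [ej, Pi.smul_apply, smul_eq_mul]
      rw [← Complex.exp_add]
      congr 1
      push_cast
      ring
    rw [h]
    exact (TP d).smul_mem _ (ej_mem d j hj)
  | zero => exact (TP d).zero_mem
  | add x y _ _ hx hy => exact (TP d).add_mem hx hy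
  | smul c x _ hx => exact (TP d).smul_mem c hx

/-- [T2] a finite combination of shifts (`TP_shift`, Submodule.sum_mem, smul_mem). -/
theorem rD_mem (d : ℕ) (q : ℝ → ℂ) (hq : q ∈ TP d) : rD d q ∈ TP d := by
  have h : rD d q = ∑ k ∈ range (2 * d), (rwt d k : ℂ) • (fun θ => q (θ + rth d k)) := by
    funext θ
    simp [rD, Finset.sum_apply]
  rw [h]
  exact Submodule.sum_mem _ (fun k _ => Submodule.smul_mem _ _ (TP_shift d q hq _))

/-- [T3] span induction; for q = e_j this is `riesz_key` (multiply by exp(i j theta)). -/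
theorem hasDerivAt_TP (d : ℕ) (hd : 1 ≤ d) (q : ℝ → ℂ) (hq : q ∈ TP d) (θ : ℝ) :
    HasDerivAt q (rD d q θ) θ := by
  unfold TP at hq
  induction hq using Submodule.span_induction with
  | mem x hx =>
    obtain ⟨j, hj, rfl⟩ := hx
    have h1 : rD d (ej j) θ =
        Complex.exp ((j : ℂ) * (θ : ℂ) * Complex.I) * ((j : ℂ) * Complex.I) := by
      have hk := riesz_key d hd j hj
      unfold rD ej
      calc ∑ k ∈ range (2 * d),
            (rwt d k : ℂ) * Complex.exp ((j : ℂ) * ((θ + rth d k : ℝ) : ℂ) * Complex.I)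
          = ∑ k ∈ range (2 * d), Complex.exp ((j : ℂ) * (θ : ℂ) * Complex.I) *
              ((rwt d k : ℂ) * Complex.exp ((j : ℂ) * (rth d k : ℂ) * Complex.I)) := by
            refine Finset.sum_congr rfl fun k _ => ?_
            rw [mul_left_comm, ← Complex.exp_add]
            congr 2
            push_cast
            ring
        _ = _ := by rw [← Finset.mul_sum, hk]
    rw [h1]
    have h2 : HasDerivAt (fun t : ℝ => (j : ℂ) * (t : ℂ) * Complex.I) ((j : ℂ) * Complex.I) θ := by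
      simpa using ((hasDerivAt_id θ).ofReal_comp.const_mul (j : ℂ)).mul_const Complex.I
    exact h2.cexp
  | zero =>
    have h : rD d (0 : ℝ → ℂ) θ = 0 := by simp [rD]
    rw [h]
    exact hasDerivAt_const θ (0 : ℂ)
  | add x y _ _ hx hy =>
    have h : rD d (x + y) θ = rD d x θ + rD d y θ := by
      simp [rD, mul_add, Finset.sum_add_distrib]
    rw [h]
    exact hx.add hy
  | smul a x _ hx =>
    have h : rD d (a • x) θ = a * rD d x θ := by
      simp only [rD, Pi.smul_apply, smul_eq_mul, Finset.mul_sum]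
      refine Finset.sum_congr rfl fun k _ => ?_
      ring
    rw [h]
    exact hx.const_mul a

/-- [T4] triangle inequality and `sum_abs_rwt`. -/
theorem rD_bound (d : ℕ) (hd : 1 ≤ d) (q : ℝ → ℂ) (B : ℝ) (hB : ∀ θ, ‖q θ‖ ≤ B) (θ : ℝ) :
    ‖rD d q θ‖ ≤ (d : ℝ) * B := by
  unfold rD
  calc ‖∑ k ∈ range (2 * d), (rwt d k : ℂ) * q (θ + rth d k)‖
      ≤ ∑ k ∈ range (2 * d), ‖(rwt d k : ℂ) * q (θ + rth d k)‖ := norm_sum_le _ _
    _ ≤ ∑ k ∈ range (2 * d), |rwt d k| * B := by
        apply Finset.sum_le_sum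
        intro k _
        rw [norm_mul, Complex.norm_real, Real.norm_eq_abs]
        exact mul_le_mul_of_nonneg_left (hB _) (abs_nonneg _)
    _ = (d : ℝ) * B := by
        rw [← Finset.sum_mul, sum_abs_rwt d hd]

/-- [T5] Submodule.span_mono. -/
theorem TP_mono {a b : ℕ} (h : a ≤ b) : TP a ≤ TP b := by
  apply Submodule.span_mono
  apply Set.image_mono
  intro j hj
  have h' : (a : ℤ) ≤ (b : ℤ) := by exact_mod_cast h
  exact le_trans hj h'

/-- [T5] e_0 = 1. -/
theorem one_mem_TP : (fun _ : ℝ => (1 : ℂ)) ∈ TP 0 := by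
  have h : (fun _ : ℝ => (1 : ℂ)) = ej 0 := by
    funext θ
    simp [ej]
  rw [h]
  exact ej_mem 0 0 (by simp)

/-- [T6] span induction: sin theta * e_j = (e_(j+1) - e_(j-1)) / (2 i). -/
theorem sin_mul_mem (a : ℕ) (q : ℝ → ℂ) (hq : q ∈ TP a) :
    (fun θ : ℝ => ((Real.sin θ : ℝ) : ℂ) * q θ) ∈ TP (a + 1) := by
  unfold TP at hq
  induction hq using Submodule.span_induction with
  | mem x hx =>
    obtain ⟨j, hj, rfl⟩ := hx
    have hj' : |j| ≤ (a : ℤ) := hj
    have h : (fun θ : ℝ => ((Real.sin θ : ℝ) : ℂ) * ej j θ) =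
        (-Complex.I / 2) • ej (j + 1) + (Complex.I / 2) • ej (j - 1) := by
      funext θ
      simp only [ej, Pi.add_apply, Pi.smul_apply, smul_eq_mul]
      rw [Complex.ofReal_sin, Complex.sin]
      have e1 : Complex.exp (((j + 1 : ℤ) : ℂ) * (θ : ℂ) * Complex.I) =
          Complex.exp ((j : ℂ) * (θ : ℂ) * Complex.I) * Complex.exp ((θ : ℂ) * Complex.I) := by
        rw [← Complex.exp_add]
        congr 1
        push_cast
        ring
      have e2 : Complex.exp (((j - 1 : ℤ) : ℂ) * (θ : ℂ) * Complex.I) =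
          Complex.exp ((j : ℂ) * (θ : ℂ) * Complex.I) * Complex.exp (-(θ : ℂ) * Complex.I) := by
        rw [← Complex.exp_add]
        congr 1
        push_cast
        ring
      rw [e1, e2]
      ring
    rw [h]
    rw [abs_le] at hj'
    refine (TP (a + 1)).add_mem ((TP (a + 1)).smul_mem _ (ej_mem _ _ ?_))
      ((TP (a + 1)).smul_mem _ (ej_mem _ _ ?_))
    · rw [abs_le]; push_cast; constructor <;> linarith [hj'.1, hj'.2]
    · rw [abs_le]; push_cast; constructor <;> linarith [hj'.1, hj'.2]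
  | zero =>
    have h : (fun θ : ℝ => ((Real.sin θ : ℝ) : ℂ) * (0 : ℝ → ℂ) θ) = 0 := by
      funext θ; simp
    rw [h]
    exact (TP (a + 1)).zero_mem
  | add x y _ _ hx hy =>
    have h : (fun θ : ℝ => ((Real.sin θ : ℝ) : ℂ) * (x + y) θ) =
        (fun θ : ℝ => ((Real.sin θ : ℝ) : ℂ) * x θ) + (fun θ : ℝ => ((Real.sin θ : ℝ) : ℂ) * y θ) := by
      funext θ; simp [mul_add]
    rw [h]
    exact (TP (a + 1)).add_mem hx hy
  | smul c x _ hx =>
    have h : (fun θ : ℝ => ((Real.sin θ : ℝ) : ℂ) * (c • x) θ) =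
        c • (fun θ : ℝ => ((Real.sin θ : ℝ) : ℂ) * x θ) := by
      funext θ; simp only [Pi.smul_apply, smul_eq_mul]; ring
    rw [h]
    exact (TP (a + 1)).smul_mem c hx

/-- [T7] induction on k from `one_mem_TP`, `sin_mul_mem`, then `TP_mono`. -/
theorem sin_pow_mem (d k : ℕ) (hk : k ≤ d) :
    (fun θ : ℝ => ((Real.sin θ : ℝ) : ℂ) ^ k) ∈ TP d := by
  have h : ∀ k : ℕ, (fun θ : ℝ => ((Real.sin θ : ℝ) : ℂ) ^ k) ∈ TP k := by
    intro k
    induction k with
    | zero => simpa using one_mem_TP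
    | succ n ih =>
      have := sin_mul_mem n _ ih
      have h2 : (fun θ : ℝ => ((Real.sin θ : ℝ) : ℂ) ^ (n + 1))
          = (fun θ : ℝ => ((Real.sin θ : ℝ) : ℂ) * ((Real.sin θ : ℝ) : ℂ) ^ n) := by
        funext θ
        rw [pow_succ]; ring
      rw [h2]
      exact this
  exact TP_mono hk (h k)

end Vale.Agent.P047.Up
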